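import Crest.Agent.N255.Mv.Per
import Crest.Agent.N255.Wn.B2

/-!
# Row 255 (helper72): detection on zone systems.  Exactness near the vertex from the far caps,
exactness towards the wall, commutation of the caps.
-/

set_option autoImplicit false
open Set

noncomputable section

namespace Crest.Agent.N255.Dt

open Tp Wn Mv

variable {X : Type} [TopologicalSpace X] {k : Type} [Field k] {A : Type} [AddCommGroup A] [Module k A]
  {n i j d : ℕ} {𝒞 : Set (Set X)} {κ ι α : Type} {W K : Set X} {Z : κ → Set X}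
  {D : ∀ {n : ℕ} (j : ℕ) {i : ℕ}, Co k i X → Ch k n X →ₗ[k] Ch k j X}

/-- the refinement of `𝒞` by the zones -/
def rf (𝒞 : Set (Set X)) (Z : κ → Set X) : Set (Set X) := {Y | ∃ C ∈ 𝒞, ∃ j, Y = C ∩ Z j}

theorem rf_op (ho : ∀ C ∈ 𝒞, IsOpen C) (hZ : ∀ j, IsOpen (Z j)) : ∀ Y ∈ rf 𝒞 Z, IsOpen Y := by
  rintro _ ⟨C, hC, j, rfl⟩
  exact (ho C hC).inter (hZ j)

omit [TopologicalSpace X] in
theorem rf_cov (hc : univ ⊆ ⋃₀ 𝒞) (hZ : ∀ x, ∃ j, x ∈ Z j) : univ ⊆ ⋃₀ rf 𝒞 Z := fun x hx =>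
  let ⟨C, h1, h2⟩ := hc hx
  let ⟨j, h3⟩ := hZ x
  ⟨_, ⟨C, h1, j, rfl⟩, h2, h3⟩

theorem rf_le : (Sm (rf 𝒞 Z)).Le (Sm 𝒞) :=
  Sm_le (by rintro _ ⟨C, hC, j, rfl⟩; exact ⟨C, hC, inter_subset_left⟩)

theorem sw_rf_le : (Sw (rf 𝒞 Z) W).Le (Sw 𝒞 W) :=
  Sb.le_inf Sb.inf_le_left (Sb.inf_le_right.trans rf_le)

theorem sw_le_rf (j : κ) : (Sw 𝒞 (Z j)).Le (Sm (rf 𝒞 Z)) := fun _ _ ⟨h1, C, hC, h2⟩ =>
  ⟨_, ⟨C, hC, j, rfl⟩, subset_inter h2 h1⟩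

theorem van_rf {φ : Co A n X} (h : ∀ j, φ ∈ (Sw 𝒞 (Z j ∩ W)).van k A n ∨ Disjoint (Z j) W) :
    φ ∈ (Sw (rf 𝒞 Z) W).van k A n := by
  rintro σ ⟨h1, _, ⟨C, hC, j, rfl⟩, h2⟩
  have h3 : range σ ⊆ Z j ∩ W := subset_inter (h2.trans inter_subset_right) h1
  rcases h j with h | h
  · exact h σ ⟨h3, C, hC, h2.trans inter_subset_left⟩
  · rw [h.inter_eq] at h3
    exact (h3 (mem_range_self (Classical.arbitrary _))).elim

theorem res_Z {P : Sb X} {φ : Co A n X} (h : φ ∈ P.Z k A n) : P.res φ ∈ P.Z k A n := by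
  simpa using sub_mem h (Sb.van_le_Z (Sb.sub_res (k := k) φ))

theorem res_sub {P Q : Sb X} (h : Q.Le P) (φ : Co A n X) : P.res φ - φ ∈ Q.van k A n :=
  Sb.van_mono h (by simpa using neg_mem (Sb.sub_res (k := k) (P := P) φ))

/-- **commutation of the caps** on a chain which is cut into zones -/
theorem com_of [Fintype κ] {P : κ → Sb X} {Q : Sb X} {ρ : κ → Ch k 4 X} (hρ : ∀ j, ρ j ∈ (P j).ch k 4)
    (hb : bd k (∑ j, ρ j) ∈ Q.ch k 3) {q u : Co k 2 X} (hq : ∀ j, q ∈ (P j).Z k k 2)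
    (h : ∀ j, q ∈ (P j).van k k 2 ∨ u ∈ (P j).Z k k 2 ∧ u ∈ ((P j).inf Q).van k k 2) :
    ev k u (cap 2 q (∑ j, ρ j)) = ev k u (cap' 2 q (∑ j, ρ j)) := by
  have e := congrArg (fun φ => ev k φ (∑ j, ρ j)) (cob_cup1 (LinearMap.mul k k) (n := 3) (i := 2) (j := 2) rfl q u)
  have z : ∀ {φ : Co k 4 X}, (∀ j, φ ∈ (P j).van k k 4) → ev k φ (∑ j, ρ j) = 0 := fun h => by
    rw [map_sum]; exact Finset.sum_eq_zero fun j _ => Sb.ev_eq_zero (h j) (hρ j)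
  have z1 := z fun j => cup1_van_left (LinearMap.mul k k) 4 (Sb.mem_Z.1 (hq j)) u
  have z2 := z (φ := cup1 (LinearMap.mul k k) 4 q (cob k u)) fun j => (h j).elim
    (fun h => cup1_van_left _ 4 h _) fun h => cup1_van_right _ 4 _ (Sb.mem_Z.1 h.1)
  have z3 : ev k (cup1 (LinearMap.mul k k) 3 q u) (bd k (∑ j, ρ j)) = 0 := by
    have : bd k (∑ j, ρ j) ∈ Finsupp.supported k k (⋃ j, (P j).S 3) := by
      rw [map_sum]
      exact sum_mem fun j _ => Finsupp.supported_mono (subset_iUnion (fun j => (P j).S 3) j)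
        (Sb.bd_mem (hρ j))
    rw [ev, Finsupp.linearCombination_apply]
    refine Finset.sum_eq_zero fun σ hσ => ?_
    obtain ⟨j, hj⟩ := mem_iUnion.1 (this hσ)
    rcases h j with h | h
    · exact smul_eq_zero_of_right _ (cup1_van_left _ 3 h u σ hj)
    · exact smul_eq_zero_of_right _ (cup1_van_right _ 3 q h.2 σ ⟨hj, hb hσ⟩)
  simp only [ev_sub, ev_smul, ← ev_bd, z1, z2, z3, mul_flip] at e
  rw [← per_eq, ← per'_eq, per_mul]
  have e' : per' 4 q u (∑ j, ρ j) = ev k (cup (LinearMap.mul k k) 4 u q) (∑ j, ρ j) := by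
    rw [per']; congr 2; funext σ; simp [cup, mul_comm]
  rw [e', ← sub_eq_zero]
  generalize ∑ j, ρ j = c at e
  norm_num at e
  exact e.symm

variable (ho : ∀ C ∈ 𝒞, IsOpen C) (hc : univ ⊆ ⋃₀ 𝒞) [T2Space X]
include ho hc

/-- the cut formula for a chain which is only adapted to the big region `W` -/
theorem cut_core (hD : CapLike k X D) (hij : i + j = d + 1) : ∃ v : kˣ, ∀ {O : Ori k (d + 1) X}
    {s r : C(X, ℝ)} {a c b R a₂ : ℝ} {W K : Set X} {ρ : Ch k (d + 2) X} {w : Ch k (d + 1) X}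
    {u : Co A j X} {η h : Co k i X}, a < c → c ≤ a₂ → c < b → IsCompact (box s r a b R) → IsCompact K →
    win s a b ⊆ W → fw s r a b R ⊆ Kᶜ → (∀ Y ∈ 𝒞, cob k η ∈ (On Y).van k k (i + 1) ∨ Y ⊆ W) →
    ρ ∈ (Sm 𝒞).ch k (d + 2) → O.Fund K ρ → u ∈ (Sw 𝒞 W).Z k A j → u ∈ (Sw 𝒞 (W \ K)).van k A j →
    η ∈ (Sw 𝒞 (lo s c)).van k k i → η - h ∈ (Sw 𝒞 (hi s c)).van k k i →
    h ∈ (Sw 𝒞 (hi s c)).Z k k i → Wr O 𝒞 s r a₂ b R w → w ∈ (Sm 𝒞).ch k (d + 1) →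
    ev k u (D j (cob k η) ρ) = (v : k) • ev k u (D j h w) := by
  obtain ⟨v, H⟩ := cut_r (A := A) ho hc hD hij
  refine ⟨v, fun {O s r a c b R a₂ W K ρ w u η h} h1 h2 h3 hB hK hW hF hY s1 f1 u1 u2 l1 l2 l3 hw s2 => ?_⟩
  obtain ⟨z, s3, f3⟩ := fundS_holds k X (d + 1) O (K ∪ box s r a b R)
    (tri 𝒞 (lo s c) (win s a b) (hi s c)) (hK.union hB) (by
      rintro _ ⟨C, hC, rfl | rfl | rfl⟩
      exacts [(ho C hC).inter isOpen_lo, (ho C hC).inter isOpen_win, (ho C hC).inter isOpen_hi])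
    fun x _ => by
      obtain ⟨C, c1, c2⟩ := hc (mem_univ x)
      rcases lt_trichotomy (s x) c with e | e | e
      · exact ⟨_, ⟨C, c1, .inl rfl⟩, c2, e⟩
      · exact ⟨_, ⟨C, c1, .inr (.inl rfl)⟩, c2, show a < s x ∧ s x < b from ⟨e ▸ h1, e ▸ h3⟩⟩
      · exact ⟨_, ⟨C, c1, .inr (.inr rfl)⟩, c2, e⟩
  have s4 := Sb.ch_mono tri_le s3
  rw [← H h1 (h1.trans h3) h3 hB (hK.union hB)
    ((sdiff_subset_sdiff_right subset_union_right).trans win_diff_box) s3 f3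
    (Sb.Z_mono (sw_mono hW) u1) (Sb.van_mono (sw_mono (subset_inter (fw_le.trans hW) hF)) u2) l1 l2 l3
    (h1.le.trans h2) h2 le_rfl le_rfl hw s2, ← sub_eq_zero, ← map_sub]
  exact ev_RN_sm ho hc u1 u2 (D_indep hD ho hc (by omega)
    (by rw [Sb.mem_Z, cob_cob]; exact zero_mem _) hY subset_rfl s1 s4 f1
    (f3.mono hK (hK.union hB) subset_union_left)) (sub_mem (D_sm hD _ s1) (D_sm hD _ s4))

omit ho hc [T2Space X] in
/-- the cochains which pair trivially -/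
def kr (f : Co A j X) (y : Ch k n X) : Submodule k (Co k i X) where
  carrier := {x | per n x f y = 0}
  add_mem' h h' := by simp_all [per_add]
  zero_mem' := by simpa using per_smul (0 : k) (0 : Co k i X) f y
  smul_mem' a x h := by simp_all [per_smul]

omit ho hc [T2Space X] in
theorem exists_rad (r : C(X, ℝ)) (hK : IsCompact K) : ∃ R, Wn.hi r R ⊆ Kᶜ := by
  obtain ⟨R, hR⟩ := hK.bddAbove_image r.continuous.continuousOn
  exact ⟨R, fun x hx h => (hR ⟨x, h, rfl⟩).not_gt hx⟩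

variable [ChartedSpace (EE 4) X] {O : Ori k 3 X} (hO : O.ND) (hX : Acy k (univ : Set X) univ)
include hO hX

/-- exactness near the vertex, all simplices small -/
theorem det_far [Fintype ι] {s : ι → C(X, ℝ)} {r : C(X, ℝ)} {a₀ a a₂ b : ι → ℝ}
    (h1 : ∀ e, a₀ e ≤ a e) (h2 : ∀ e, a e ≤ a₂ e) (h3 : ∀ e, a₂ e < b e)
    (hd : ∀ e e', e ≠ e' → ∀ x, a₀ e < s e x → s e' x ≤ a₀ e')
    (hB : ∀ e R, IsCompact (box (s e) r (a₀ e) (b e) R)) {sl : α → ι} {c : α → ℝ} {η h : α → Co k 1 X}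
    {T : Set α} (c1 : ∀ x ∈ T, a₀ (sl x) < c x ∧ c x ≤ a₂ (sl x))
    (l1 : ∀ x ∈ T, η x ∈ (Sw 𝒞 (lo (s (sl x)) (c x))).van k k 1)
    (l2 : ∀ x ∈ T, η x - h x ∈ (Sw 𝒞 (hi (s (sl x)) (c x))).van k k 1)
    (l3 : ∀ x ∈ T, h x ∈ (Sw 𝒞 (hi (s (sl x)) (c x))).Z k k 1)
    (sp : ∀ e, (On (hi (s e) (a e))).Z k k 1 ≤ Submodule.span k (h '' {x | x ∈ T ∧ sl x = e}) ⊔
      (Sw 𝒞 (win (s e) (a₂ e) (b e))).Ex k k 1) (hK : IsCompact K) {ρ : Ch k 4 X}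
    (s1 : ρ ∈ (Sm 𝒞).ch k 4) (f1 : O.Fund K ρ)
    (hY : ∀ x ∈ T, ∀ Y ∈ 𝒞, cob k (η x) ∈ (On Y).van k k 2 ∨ Y ⊆ {y | ∀ e, s e y < b e})
    {u : Co k 2 X} (u1 : u ∈ (Sw 𝒞 {y | ∀ e, s e y < b e}).Z k k 2)
    (u2 : u ∈ (Sw 𝒞 ({y | ∀ e, s e y < b e} \ K)).van k k 2)
    (hu : ∀ x ∈ T, ev k u (cap 2 (cob k (η x)) ρ) = 0) :
    ∃ θ ∈ Cc k univ k 1, u - cob k θ ∈ (Sw 𝒞 {y | ∀ e, s e y ≤ a e}).van k k 2 := by
  obtain ⟨R, hR⟩ := exists_rad r hK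
  set W := {y | ∀ e, s e y < b e}
  have hW : ∀ e, win (s e) (a₀ e) (b e) ⊆ W := fun e y hy e' => by
    by_cases q : e = e'
    · exact q ▸ hy.2
    · linarith [hd e e' q y hy.1, h1 e', h2 e', h3 e']
  have hF : ∀ e t, fw (s e) r t (b e) R ⊆ Kᶜ := fun e t y hy => hR (fw_eq.subset hy).2
  have hB' : ∀ e t, a₀ e ≤ t → IsCompact (box (s e) r t (b e) R) := fun e t ht =>
    (hB e R).of_isClosed_subset isClosed_box (box_mono ht le_rfl le_rfl)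
  choose y y1 y2 using fun e => exists_wr ho hc O (h3 e) (hB' e _ ((h1 e).trans (h2 e)))
  have fv : (Sw 𝒞 W).res u ∈ (On Kᶜ).van k k 2 :=
    Sb.res_mem fun σ h => u2 σ ⟨subset_inter h.1.1 h.2, h.1.2⟩
  have fz : (Sw 𝒞 W).res u ∈ (Sw 𝒞 W).Z k k 2 := res_Z u1
  obtain ⟨v, H⟩ := cut_core (A := k) (i := 1) (j := 2) (d := 2) ho hc (cD' (k := k) (X := X)) rfl
  obtain ⟨θ, t1, t2⟩ := det_star (d := 2) (i := 0) (j := 1) hO hX rfl ho hc Finset.univ (a := a) (b := b)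
    (s := s) (r := r) (R := R) (y := y) (f := (Sw 𝒞 W).res u) (fun e _ => (h2 e).trans_lt (h3 e))
    (fun e _ e' _ q x hx => (hd e e' q x ((h1 e).trans_lt hx)).trans (h1 e'))
    (fun e _ => hB' e _ (h1 e)) (fun e _ => ⟨Wr.mono ho hc (y2 e) (h2 e) le_rfl le_rfl (hB' e _ (h1 e)), y1 e⟩)
    ⟨K, hK, subset_univ _, fv⟩ (by simpa using fz)
    (fun e _ => Sb.van_mono (Sb.inf_le_left.trans (On_le (hF e _))) fv) fun e _ x0 hx0 => by
      have w1 : win (s e) (a₂ e) (b e) ⊆ W := (win_mono ((h1 e).trans (h2 e)) le_rfl).trans (hW e)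
      refine (sup_le (Submodule.span_le.2 ?_) (fun x hx => ?_) : _ ≤ kr ((Sw 𝒞 W).res u) (y e)) (sp e hx0)
      · rintro _ ⟨x, ⟨hx, rfl⟩, rfl⟩
        have := H (c1 x hx).1 (c1 x hx).2 ((c1 x hx).2.trans_lt (h3 _)) (hB _ R) hK (hW _) (hF _ _)
          (hY x hx) s1 f1 u1 u2 (l1 x hx) (l2 x hx) (l3 x hx) (y2 _) (y1 _)
        rw [hu x hx, eq_comm, smul_eq_zero, or_iff_right v.ne_zero] at this
        change per 3 _ _ _ = 0
        rw [per_eq, Sb.ev_congr (res_sub (sw_mono w1) u) (D_sw cD' _ (wr_sw ho hc (y2 _) (y1 _))), this]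
      · change per 3 _ _ _ = 0
        rw [per_eq]
        exact Mv.die (d := 2) (i := 0) ho hc cD' rfl (Sb.Z_mono (sw_mono w1) fz)
          (Sb.van_mono (Sb.inf_le_left.trans (On_le (hF e _))) fv) hx (y2 e) (y1 e)
  refine ⟨θ, t1, ?_⟩
  have := sub_mem t2 (res_sub (sw_mono (W' := W) fun y hy e =>
    (hy e (Finset.mem_univ e)).trans_lt ((h2 e).trans_lt (h3 e))) u)
  simpa using this

/-- **exactness near the vertex**: `u` is closed on the zones which meet the region below `b` -/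
theorem det1 [Fintype ι] [Fintype κ] (hZ : ∀ j, IsOpen (Z j)) {s : ι → C(X, ℝ)} {r : C(X, ℝ)}
    {a₀ a a₂ b : ι → ℝ} (h1 : ∀ e, a₀ e ≤ a e) (h2 : ∀ e, a e ≤ a₂ e) (h3 : ∀ e, a₂ e < b e)
    (hd : ∀ e e', e ≠ e' → ∀ x, a₀ e < s e x → s e' x ≤ a₀ e')
    (hB : ∀ e R, IsCompact (box (s e) r (a₀ e) (b e) R)) (cov : ∀ y, (∀ e, s e y ≤ b e) → ∃ j, y ∈ Z j)
    {sl : α → ι} {c : α → ℝ} {η h : α → Co k 1 X}
    {T : Set α} (c1 : ∀ x ∈ T, a₀ (sl x) < c x ∧ c x ≤ a₂ (sl x))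
    (l1 : ∀ x ∈ T, η x ∈ (Sw 𝒞 (lo (s (sl x)) (c x))).van k k 1)
    (l2 : ∀ x ∈ T, η x - h x ∈ (Sw 𝒞 (hi (s (sl x)) (c x))).van k k 1)
    (l3 : ∀ x ∈ T, h x ∈ (Sw 𝒞 (hi (s (sl x)) (c x))).Z k k 1)
    (sp : ∀ e, (On (hi (s e) (a e))).Z k k 1 ≤ Submodule.span k (h '' {x | x ∈ T ∧ sl x = e}) ⊔
      (Sw 𝒞 (win (s e) (a₂ e) (b e))).Ex k k 1) (hK : IsCompact K) {ρ : κ → Ch k 4 X}
    (s1 : ∀ j, ρ j ∈ (Sw 𝒞 (Z j)).ch k 4) (f1 : O.Fund K (∑ j, ρ j))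
    (hY : ∀ x ∈ T, ∀ j, cob k (η x) ∈ (Sw 𝒞 (Z j)).van k k 2 ∨ Z j ⊆ {y | ∀ e, s e y < b e})
    {u : Co k 2 X} (u1 : ∀ j, u ∈ (Sw 𝒞 (Z j)).Z k k 2 ∧
      u ∈ (Sw 𝒞 ((Z j ∩ {y | ∀ e, s e y < b e}) \ K)).van k k 2 ∨ Disjoint (Z j) {y | ∀ e, s e y < b e})
    (hu : ∀ x ∈ T, ev k u (cap 2 (cob k (η x)) (∑ j, ρ j)) = 0) {j₀ : κ}
    (hj : Z j₀ ⊆ {y | ∀ e, s e y ≤ a e}) :
    ∃ θ ∈ Cc k univ k 1, u - cob k θ ∈ (Sw 𝒞 (Z j₀)).van k k 2 := by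
  let Z' : κ ⊕ ι → Set X := Sum.elim Z fun e => hi (s e) (b e)
  have dj : ∀ e, Disjoint (hi (s e) (b e)) {y | ∀ e, s e y < b e} := fun e =>
    disjoint_left.2 fun y h h' => lt_asymm h (h' e)
  obtain ⟨θ, t1, t2⟩ := det_far (𝒞 := rf 𝒞 Z') (rf_op ho (by rintro (j | e); exacts [hZ j, isOpen_hi]))
    (rf_cov hc fun y => by
      by_cases q : ∀ e, s e y ≤ b e
      · exact (cov y q).elim fun j hj => ⟨.inl j, hj⟩
      · obtain ⟨e, he⟩ := not_forall.1 q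
        exact ⟨.inr e, not_le.1 he⟩) hO hX h1 h2 h3 hd hB c1
    (fun x hx => Sb.van_mono sw_rf_le (l1 x hx)) (fun x hx => Sb.van_mono sw_rf_le (l2 x hx))
    (fun x hx => Sb.Z_mono sw_rf_le (l3 x hx))
    (fun e => (sp e).trans (sup_le_sup_left (Sb.Ex_mono sw_rf_le) _)) hK
    (sum_mem fun j _ => Sb.ch_mono (sw_le_rf (Z := Z') (.inl j)) (s1 j)) f1 (by
      rintro x hx _ ⟨C, hC, j | e, rfl⟩
      · exact (hY x hx j).imp (fun h => Sb.van_mono (on_le_sw hC inter_subset_left inter_subset_right) h)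
          inter_subset_right.trans
      · left
        by_cases q : e = sl x
        · have : η x ∈ (Sw 𝒞 (hi (s (sl x)) (c x))).Z k k 1 := by
            simpa using add_mem (Sb.van_le_Z (l2 x hx)) (l3 x hx)
          exact Sb.van_mono (on_le_sw hC inter_subset_left (inter_subset_right.trans
            (q ▸ hi_mono ((c1 x hx).2.trans (q ▸ (h3 _).le))))) (Sb.mem_Z.1 this)
        · exact Sb.van_mono (on_le_sw hC inter_subset_left fun y hy => (hd e _ q y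
            (((h1 e).trans (h2 e)).trans_lt ((h3 e).trans hy.2))).trans_lt (c1 x hx).1)
            (Sb.mem_Z.1 (Sb.van_le_Z (l1 x hx))))
    (Sb.mem_Z.2 (van_rf (by
      rintro (j | e)
      exacts [(u1 j).imp_left fun h => Sb.van_mono (sw_mono inter_subset_left) (Sb.mem_Z.1 h.1),
        .inr (dj e)])))
    (van_rf (by
      rintro (j | e)
      exacts [(u1 j).imp (fun h => Sb.van_mono (sw_mono (inter_sdiff_assoc _ _ _).superset) h.2)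
        (Disjoint.mono_right sdiff_subset), .inr ((dj e).mono_right sdiff_subset)])) hu
  exact ⟨θ, t1, Sb.van_mono (Sb.le_inf (Sb.inf_le_left.trans (On_le hj)) (sw_le_rf (Z := Z') (.inl j₀))) t2⟩

/-- **exactness towards the wall**: `u` is closed on the zones which meet the window `(a, b)` and vanishes
on `(b', b)` -/
theorem det2 (hZ : ∀ j, IsOpen (Z j)) {s r : C(X, ℝ)} {a a₁ a' b' b R : ℝ} (h1 : a < a₁) (h2 : a₁ ≤ a')
    (h3 : a' ≤ b') (h4 : b' < b) (hB : IsCompact (box s r a b R))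
    (cov : ∀ y, a ≤ s y → s y ≤ b → ∃ j, y ∈ Z j)
    (cst : (On (lo s a')).Z k k 1 ≤ (Sw 𝒞 (win s a b)).Z k k 1 ⊔ (Sw 𝒞 (win s a a₁)).Ex k k 1)
    {u : Co k 2 X} (u1 : ∀ j, u ∈ (Sw 𝒞 (Z j ∩ win s a b)).Z k k 2 ∧
      u ∈ (Sw 𝒞 (Z j ∩ fw s r a b R)).van k k 2 ∨ Disjoint (Z j) (win s a b))
    (u3 : u ∈ (Sw 𝒞 (win s b' b)).van k k 2) {j₀ : κ} (hj : Z j₀ ⊆ {y | a' ≤ s y ∧ s y ≤ b'}) :
    ∃ θ ∈ Cc k univ k 1, u - cob k θ ∈ (Sw 𝒞 (Z j₀)).van k k 2 := by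
  let Z' : κ ⊕ Bool → Set X := Sum.elim Z fun e => if e then lo s a else hi s b
  have dj : ∀ e, Disjoint (Z' (.inr e)) (win s a b) := fun e =>
    disjoint_left.2 fun y h h' => by
      cases e
      exacts [lt_asymm h h'.2, lt_asymm h h'.1]
  have ho' : ∀ Y ∈ rf 𝒞 Z', IsOpen Y :=
    rf_op ho (by rintro (j | _ | _); exacts [hZ j, isOpen_hi, isOpen_lo])
  have hc' : univ ⊆ ⋃₀ rf 𝒞 Z' := rf_cov hc fun y => by
    rcases lt_or_ge (s y) a with q | q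
    · exact ⟨.inr true, q⟩
    rcases lt_or_ge b (s y) with q' | q'
    · exact ⟨.inr false, q'⟩
    · exact (cov y q q').elim fun j hj => ⟨.inl j, hj⟩
  set P := Sw (rf 𝒞 Z') (win s a b)
  have fz : P.res u ∈ P.Z k k 2 := res_Z (Sb.mem_Z.2 (van_rf (by
    rintro (j | e)
    exacts [(u1 j).imp_left fun h => Sb.mem_Z.1 h.1, .inr (dj e)])))
  have uf : u ∈ (Sw (rf 𝒞 Z') (fw s r a b R)).van k k 2 := van_rf (by
    rintro (j | e)
    exacts [(u1 j).imp And.right (Disjoint.mono_right fw_le), .inr ((dj e).mono_right fw_le)])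
  have fv : P.res u ∈ (On (box s r a b R)ᶜ).van k k 2 :=
    Sb.res_mem fun σ h => uf σ ⟨(subset_inter h.1.1 h.2).trans win_diff_box, h.1.2⟩
  have ff : P.res u ∈ (Sw (rf 𝒞 Z') (fw s r a b R)).van k k 2 := by
    simpa using add_mem (res_sub (sw_mono fw_le) u) uf
  have hab : a ≤ b' := (h1.le.trans h2).trans h3
  have hab' : a₁ ≤ b := (h2.trans h3).trans h4.le
  have hB' : ∀ {t t'}, a ≤ t → t' ≤ b → IsCompact (box s r t t' R) := fun h h' =>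
    hB.of_isClosed_subset isClosed_box (box_mono h h' le_rfl)
  obtain ⟨y, y1, y2⟩ := exists_wr ho' hc' O h1 (hB' le_rfl hab')
  obtain ⟨y', y1', y2'⟩ := exists_wr ho' hc' O h4 (hB' hab le_rfl)
  have f3 : P.res u ∈ (Sw (rf 𝒞 Z') (win s b' b)).van k k 2 := by
    simpa using add_mem (res_sub (sw_mono (win_mono hab le_rfl)) u) (Sb.van_mono sw_rf_le u3)
  have z' : ∀ x : Co k 1 X, per 3 x (P.res u) y' = 0 := fun x => by
    rw [per_eq]; exact Sb.ev_eq_zero f3 (D_sw cD' _ (wr_sw ho' hc' y2' y1'))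
  obtain ⟨θ, t1, t2⟩ := det_win (d := 2) (i := 0) (j := 1) hO hX rfl ho' hc' (h1.trans_le h2) h3 h4 hB
    (y2.mono ho' hc' le_rfl h2 le_rfl (hB' le_rfl (h3.trans h4.le))) y1 y2' y1'
    ⟨_, hB, subset_univ _, fv⟩ fz (Sb.van_mono (sw_mono (fw_mono le_rfl (h3.trans h4.le) le_rfl)) ff)
    (Sb.van_mono (sw_mono (fw_mono hab le_rfl le_rfl)) ff) (fun x hx => by
      refine (sup_le (fun x hx => ?_) (fun x hx => ?_) : _ ≤ kr (P.res u) y) (cst hx)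
      · change per 3 _ _ _ = 0
        rw [← z' x, per_eq, per_eq]
        exact Mv.move (d := 2) (i := 1) (j := 2) ho' hc' cD' rfl hB fz ff (Sb.Z_mono sw_rf_le hx) le_rfl hab' le_rfl hab
          le_rfl le_rfl y2 y2' y1 y1'
      · change per 3 _ _ _ = 0
        rw [per_eq]
        exact Mv.die (d := 2) (i := 0) ho' hc' cD' rfl (Sb.Z_mono (sw_mono (win_mono le_rfl hab')) fz)
          (Sb.van_mono (sw_mono (fw_mono le_rfl hab' le_rfl)) ff) (Sb.Ex_mono sw_rf_le hx) y2 y1)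
    fun x _ => z' x
  have le : (Sw 𝒞 (Z j₀)).Le (Sw (rf 𝒞 Z') {y | a' ≤ s y ∧ s y ≤ b'}) :=
    Sb.le_inf (Sb.inf_le_left.trans (On_le hj)) (sw_le_rf (Z := Z') (.inl j₀))
  refine ⟨θ, t1, Sb.van_mono le ?_⟩
  simpa [P] using sub_mem t2 (res_sub (sw_mono (W' := win s a b) fun y hy =>
    ⟨(h1.trans_le h2).trans_le hy.1, hy.2.trans_lt h4⟩) u)

end Crest.Agent.N255.Dt

end
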