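import Crest.Agent.N255.Dt.Abs
import Crest.Agent.N255.Vz.Defs
import Crest.Agent.N255.Lz.Vx

/-!
# Row 255 (helper72): the scalar facts `Gz.Ok` on the zones of a vertex
-/

set_option autoImplicit false
open Set

noncomputable section

namespace Crest.Agent.N255.Dt

open Tp Wn Mv Vz Lz

variable {X : Type} [TopologicalSpace X] {k : Type} [Field k] {ι α κ μ : Type} {𝒞 : Set (Set X)}

/-- commutation of the caps, the boundary is covered by the families `R m` -/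
theorem com_of' [Fintype κ] {P : κ → Sb X} {R : μ → Sb X} {ρ : κ → Ch k 4 X}
    (hρ : ∀ j, ρ j ∈ (P j).ch k 4) (hb : ∀ τ ∈ (bd k (∑ j, ρ j)).support, ∃ m, τ ∈ (R m).S 3)
    {q u : Co k 2 X} (hq : ∀ j, q ∈ (P j).Z k k 2) (h : ∀ j, q ∈ (P j).van k k 2 ∨ u ∈ (P j).Z k k 2)
    (h' : ∀ j m, q ∈ ((P j).inf (R m)).van k k 2 ∨ u ∈ ((P j).inf (R m)).van k k 2) :
    ev k u (cap 2 q (∑ j, ρ j)) = ev k u (cap' 2 q (∑ j, ρ j)) := by
  have e := congrArg (fun φ => ev k φ (∑ j, ρ j))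
    (cob_cup1 (LinearMap.mul k k) (n := 3) (i := 2) (j := 2) rfl q u)
  have z : ∀ {φ : Co k 4 X}, (∀ j, φ ∈ (P j).van k k 4) → ev k φ (∑ j, ρ j) = 0 := fun h => by
    rw [map_sum]; exact Finset.sum_eq_zero fun j _ => Sb.ev_eq_zero (h j) (hρ j)
  have z1 := z fun j => cup1_van_left (LinearMap.mul k k) 4 (Sb.mem_Z.1 (hq j)) u
  have z2 := z (φ := cup1 (LinearMap.mul k k) 4 q (cob k u)) fun j => (h j).elim
    (fun h => cup1_van_left _ 4 h _) fun h => cup1_van_right _ 4 _ (Sb.mem_Z.1 h)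
  have z3 : ev k (cup1 (LinearMap.mul k k) 3 q u) (bd k (∑ j, ρ j)) = 0 := by
    have : bd k (∑ j, ρ j) ∈ Finsupp.supported k k (⋃ j, (P j).S 3) := by
      rw [map_sum]
      exact sum_mem fun j _ => Finsupp.supported_mono (subset_iUnion (fun j => (P j).S 3) j)
        (Sb.bd_mem (hρ j))
    rw [ev, Finsupp.linearCombination_apply]
    refine Finset.sum_eq_zero fun σ hσ => ?_
    obtain ⟨j, hj⟩ := mem_iUnion.1 (this hσ)
    obtain ⟨m, hm⟩ := hb σ hσ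
    rcases h' j m with h | h
    · exact smul_eq_zero_of_right _ (cup1_van_left _ 3 h u σ ⟨hj, hm⟩)
    · exact smul_eq_zero_of_right _ (cup1_van_right _ 3 q h σ ⟨hj, hm⟩)
  simp only [ev_sub, ev_smul, ← ev_bd, z1, z2, z3, mul_flip] at e
  rw [← per_eq, ← per'_eq, per_mul]
  have e' : per' 4 q u (∑ j, ρ j) = ev k (cup (LinearMap.mul k k) 4 u q) (∑ j, ρ j) := by
    rw [per']; congr 2; funext σ; simp [cup, mul_comm]
  rw [e', ← sub_eq_zero]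
  generalize ∑ j, ρ j = c at e
  norm_num at e
  exact e.symm

/-- **the far classes of a vertex**: `η a` is the class `h a` cut at the level `c a` of the wall `sl a` -/
structure Fv (L : Lv X ι) (𝒞 : Set (Set X)) (r : C(X, ℝ)) (sl : α → ι) (pa : α → ℕ) (c : α → ℝ)
    (η h : α → Co k 1 X) : Prop where
  c0 : ∀ a, 0 < c a
  c1 : ∀ a, c a ≤ L.l (sl a) (pa a + 1)
  lt : ∀ a, pa a < L.n
  l1 : ∀ a, η a ∈ (Sw 𝒞 (lo (L.s (sl a)) (c a))).van k k 1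
  l2 : ∀ a, η a - h a ∈ (Sw 𝒞 (hi (L.s (sl a)) (c a))).van k k 1
  l3 : ∀ a, h a ∈ (Sw 𝒞 (hi (L.s (sl a)) (c a))).Z k k 1
  sp : ∀ i m, m < L.n → (On (hi (L.s i) (L.l i m))).Z k k 1 ≤
    Submodule.span k (h '' {a | pa a ≤ m ∧ sl a = i}) ⊔ (Sw 𝒞 (hi (L.s i) (L.l i (m + 2)))).Ex k k 1
  cst : ∀ i m, m < L.n → (On (lo (L.s i) (L.l i (m + 2)))).Z k k 1 ≤
    (Sw 𝒞 (lo (L.s i) (L.r i))).Z k k 1 ⊔ (Sw 𝒞 (lo (L.s i) (L.l i m))).Ex k k 1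
  cpt : ∀ i R, IsCompact (box (L.s i) r 0 (L.r i) R)

/-- the vertex chain, cut into zones: fundamental on `Q` up to the centres, bounded by wall chains and a
chain off `Q` -/
structure Rh [Fintype ι] (L : Lv X ι) (𝒞 : Set (Set X)) (O : Ori k 3 X) (Q : Set X)
    (ρ : L.Ix → Ch k 4 X) : Prop where
  cpt : IsCompact Q
  mem : ∀ z, ρ z ∈ (L.P 𝒞 z).ch k 4
  fund : O.Fund (Q ∩ {x | ∀ i, L.s i x ≤ L.l i L.n}) (∑ z, ρ z)
  bd : ∃ c ∈ (On Qᶜ).ch k 3, ∃ σ : ι → Ch k 3 X,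
    (∀ i, σ i ∈ (On (hi (L.s i) (L.l i L.n))).ch k 3) ∧ bd k (∑ z, ρ z) = c + ∑ i, σ i

section defs
variable (L : Lv X ι) (𝒞) (i₀ : ι) (pa : α → ℕ) (η : α → Co k 1 X) (Q : Set X) (ρ : L.Ix → Ch k 4 X)

/-- the far parts of the zones -/
def Fz (z : L.Ix) : Sb X := SB 𝒞 (L.zs z \ Q)

/-- deep zones -/
def dp (z : L.Ix) : Prop := L.n < L.pos z + 5

/-- the zone data without the predicates -/
def gz0 : Gz k X L.Ix α ι where
  P := L.P 𝒞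
  PK i := L.P 𝒞 (L.ce i)
  q a := cob k (η a)
  ρ := ρ
  γ := 4
  pos := L.pos
  pa := pa
  sl := L.sl i₀
  N1 _ _ := True
  N2 _ _ := True

/-- **the zone data of a vertex** -/
def gz : Gz k X L.Ix α ι :=
  { gz0 𝒞 L i₀ pa η ρ with
    N1 := (gz0 𝒞 L i₀ pa η ρ).M1 (gz0 𝒞 L i₀ pa η ρ).NF (Fz 𝒞 L Q) (dp L)
    N2 := (gz0 𝒞 L i₀ pa η ρ).M2 (gz0 𝒞 L i₀ pa η ρ).NF (Fz 𝒞 L Q) }

theorem gz_N1 (z : L.Ix) (u : Co k 2 X) : (gz 𝒞 L i₀ pa η Q ρ).N1 z u ↔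
    (gz 𝒞 L i₀ pa η Q ρ).M1 (gz 𝒞 L i₀ pa η Q ρ).NF (Fz 𝒞 L Q) (dp L) z u := Iff.rfl

theorem gz_N2 (z : L.Ix) (u : Co k 2 X) : (gz 𝒞 L i₀ pa η Q ρ).N2 z u ↔
    (gz 𝒞 L i₀ pa η Q ρ).M2 (gz 𝒞 L i₀ pa η Q ρ).NF (Fz 𝒞 L Q) z u := Iff.rfl

end defs

variable {L : Lv X ι} {r : C(X, ℝ)} {sl : α → ι} {pa : α → ℕ} {c : α → ℝ} {η h : α → Co k 1 X}

theorem zone_of {x : X} (hx : ∀ i, L.s i x < L.r i) : ∃ z, x ∈ L.zs z := by
  obtain ⟨U, rfl | ⟨i, rfl | rfl | ⟨z, hz, rfl⟩⟩, h⟩ := L.fs_cover x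
  · exact ⟨none, Lv.core_St h⟩
  · exact ⟨none, Lv.win_St le_rfl h⟩
  · exact ⟨L.ce i, Lv.zs_ce.ge ⟨h, hx i⟩⟩
  · exact ⟨_, Lv.sub_lt hz subset_rfl h⟩

namespace Fv
variable (V : Fv L 𝒞 r sl pa c η h)
include V

theorem q_hi (a : α) : cob k (η a) ∈ (Sw 𝒞 (hi (L.s (sl a)) (c a))).van k k 2 :=
  Sb.mem_Z.1 (by simpa using add_mem (Sb.van_le_Z (V.l2 a)) (V.l3 a))

theorem q_lo (a : α) : cob k (η a) ∈ (Sw 𝒞 (lo (L.s (sl a)) (c a))).van k k 2 :=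
  Sb.mem_Z.1 (Sb.van_le_Z (V.l1 a))

theorem q_out (a : α) (i : ι) {m : ℕ} (hm : pa a < m) :
    cob k (η a) ∈ (Sw 𝒞 (hi (L.s i) (L.l i m))).van k k 2 := by
  by_cases e : i = sl a
  · subst e
    exact Sb.van_mono (sw_mono (hi_mono ((V.c1 a).trans (Lv.l_le hm)))) (V.q_hi a)
  · exact Sb.van_mono (sw_mono (Lv.hi_lo e Lv.l_pos.le (V.c0 a).le)) (V.q_lo a)

theorem loc (a : α) (z : L.Ix) (hz : pa a < L.pos z) : cob k (η a) ∈ (L.P 𝒞 z).van k k 2 := by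
  rcases z with _ | ⟨i, z⟩
  · exact absurd hz (Nat.not_lt_zero _)
  · exact Sb.van_mono (sw_mono Lv.zs_hi) (V.q_out a i hz)

variable [Fintype ι] {O : Ori k 3 X} {Q : Set X} {ρ : L.Ix → Ch k 4 X} (H : Rh L 𝒞 O Q ρ)
include H

theorem com {u : Co k 2 X} (a : α) (h1 : ∀ z, L.pos z ≤ pa a → u ∈ (L.P 𝒞 z).Z k k 2)
    (h2 : ∀ z, L.pos z ≤ pa a → u ∈ (Fz 𝒞 L Q z).van k k 2) :
    ev k u (cap 2 (cob k (η a)) (∑ j, ρ j)) = ev k u (cap' 2 (cob k (η a)) (∑ j, ρ j)) := by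
  classical
  obtain ⟨y, y1, σ, y2, e⟩ := H.bd
  refine com_of' (R := fun m : Option ι => m.elim (On Qᶜ) fun i => On (hi (L.s i) (L.l i L.n))) H.mem
    (fun τ hτ => ?_) (fun _ => by rw [Sb.mem_Z, cob_cob]; exact zero_mem _)
    (fun z => (lt_or_ge (pa a) (L.pos z)).imp (V.loc a z) (h1 z)) ?_
  · rw [e] at hτ
    rcases Finset.mem_union.1 (Finsupp.support_add hτ) with q | q
    · exact ⟨none, y1 q⟩
    · obtain ⟨i, -, q⟩ := Finsupp.mem_support_finsetSum _ q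
      exact ⟨some i, y2 i q⟩
  · rintro z (_ | i)
    · exact (lt_or_ge (pa a) (L.pos z)).imp (fun q => Sb.van_mono Sb.inf_le_left (V.loc a z q))
        fun q τ hτ => h2 z q τ ⟨subset_inter hτ.1.1 hτ.2, hτ.1.2⟩
    · exact .inl fun τ hτ => V.q_out a i (V.lt a) τ ⟨hτ.2, hτ.1.2⟩

variable (ho : ∀ C ∈ 𝒞, IsOpen C) (hc : univ ⊆ ⋃₀ 𝒞) [T2Space X] [ChartedSpace (EE 4) X] (hO : O.ND)
  (hX : Acy k (univ : Set X) univ)
include ho hc hO hX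

theorem det1 {u : Co k 2 X} {z : L.Ix} (hz : L.pos z + 5 ≤ L.n)
    (h1 : ∀ z', L.pos z' ≤ L.pos z + 4 → u ∈ (L.P 𝒞 z').Z k k 2)
    (h2 : ∀ z', L.pos z' ≤ L.pos z + 4 → u ∈ (Fz 𝒞 L Q z').van k k 2)
    (h3 : ∀ a, pa a ≤ L.pos z + 2 → ev k u (cap 2 (cob k (η a)) (∑ j, ρ j)) = 0) :
    ∃ θ ∈ Cc k univ k 1, u - cob k θ ∈ (L.P 𝒞 z).van k k 2 := by
  refine Dt.det1 ho hc hO hX Lv.isOpen_zs (s := L.s) (r := r) (a₀ := fun _ => 0)
    (a := fun i => L.l i (L.pos z + 2)) (a₂ := fun i => L.l i (L.pos z + 4))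
    (b := fun i => L.l i (L.pos z + 5)) (fun _ => Lv.l_pos.le) (fun _ => Lv.l_le (by omega))
    (fun _ => Lv.l_lt (by omega)) (fun _ _ e _ hx => (Lv.neg e hx).le)
    (fun i R => (V.cpt i R).of_isClosed_subset isClosed_box (box_mono le_rfl (L.lt _ _).le le_rfl))
    (fun y hy => zone_of fun i => (hy i).trans_lt (L.lt _ _)) (sl := sl) (c := c) (η := η) (h := h)
    (T := {a | pa a ≤ L.pos z + 2})
    (fun a ha => ⟨V.c0 a, (V.c1 a).trans (Lv.l_le (by have : pa a ≤ _ := ha; omega))⟩)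
    (fun a _ => V.l1 a) (fun a _ => V.l2 a) (fun a _ => V.l3 a)
    (fun i => (V.sp i _ (by omega)).trans (sup_le_sup_left (Sb.Ex_mono (sw_mono win_hi)) _))
    (H.cpt.inter_right ?_) H.mem H.fund (fun a ha j => ?_) (fun j => ?_) h3
    fun y hy i => (Lv.zs_St le_rfl (by omega) hy i).le
  · rw [ofPred_forall]
    exact isClosed_iInter fun i => isClosed_le (L.s i).continuous continuous_const
  · have : pa a ≤ _ := ha
    have := V.lt a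
    exact (lt_or_ge (pa a) (L.pos j)).imp (V.loc a j) fun q => Lv.zs_St (by omega) (by omega)
  · rcases le_or_gt (L.pos j) (L.pos z + 4) with q | q
    · exact .inl ⟨h1 j q, Sb.van_mono (sw_mono (W' := L.zs j \ Q) fun y hy => ⟨hy.1.1, fun g => hy.2
        ⟨g, fun i => (hy.1.2 i).le.trans (Lv.l_le hz)⟩⟩) (h2 j q)⟩
    · rcases j with _ | ⟨i, j⟩
      · exact absurd q (Nat.not_lt_zero _)
      · exact .inr (disjoint_left.2 fun y hy g => lt_asymm (g i) ((Lv.l_le q).trans_lt (Lv.zs_hi hy)))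

omit H in
theorem det2 (hQ : IsCompact Q) {u : Co k 2 X} {i : ι} {z : Fin (L.n + 1)} (hz : 4 < (z : ℕ))
    (hn : (z : ℕ) < L.n) (h1 : ∀ z' : Fin (L.n + 1), (z : ℕ) ≤ z' + 4 → u ∈ (L.P 𝒞 (some (i, z'))).Z k k 2)
    (h2 : ∀ z' : Fin (L.n + 1), (z : ℕ) ≤ z' + 4 → u ∈ (Fz 𝒞 L Q (some (i, z'))).van k k 2)
    (h3 : u ∈ (L.P 𝒞 (L.ce i)).van k k 2) :
    ∃ θ ∈ Cc k univ k 1, u - cob k θ ∈ (L.P 𝒞 (some (i, z))).van k k 2 := by
  obtain ⟨R, hR⟩ := exists_rad r hQ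
  obtain ⟨m, hm⟩ : ∃ m, (z : ℕ) = m + 3 := ⟨z - 3, by omega⟩
  refine Dt.det2 ho hc hO hX Lv.isOpen_zs (s := L.s i) (r := r) (R := R) (a := L.l i m)
    (a₁ := L.l i (m + 1)) (a' := L.l i (m + 3)) (b' := L.l i (L.n + 1)) (b := L.l i (L.n + 2))
    (Lv.l_lt (by omega)) (Lv.l_le (by omega)) (Lv.l_le (by omega)) (Lv.l_lt (by omega))
    ((V.cpt i R).of_isClosed_subset isClosed_box (box_mono Lv.l_pos.le (L.lt _ _).le le_rfl))
    (fun y y1 y2 => zone_of fun j => ?_)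
    ((V.cst i (m + 1) (by omega)).trans (sup_le_sup
      (Sb.Z_mono (sw_mono (win_lo.trans (lo_mono (L.lt _ _).le)))) (Sb.Ex_mono (sw_mono win_lo))))
    (fun j => ?_) (Sb.van_mono (sw_mono (Lv.sub_ce (win_mono (Lv.l_le (by omega)) (L.lt _ _).le))) h3)
    fun y hy => ?_
  · by_cases e : i = j
    · exact e ▸ y2.trans_lt (L.lt _ _)
    · exact (Lv.neg e (Lv.l_pos.trans_le y1)).trans (Lv.l_pos.trans (L.lt j 0))
  · rcases j with _ | ⟨j, z'⟩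
    · exact .inr (disjoint_left.2 fun y hy g => lt_asymm (hy i) ((Lv.l_le (by omega)).trans_lt g.1))
    by_cases e : j = i
    swap
    · exact .inr (disjoint_left.2 fun y hy g =>
        lt_asymm (Lv.neg e (Lv.l_pos.trans (Lv.zs_hi hy))) (Lv.l_pos.trans g.1))
    subst e
    rcases le_or_gt (z : ℕ) (z' + 4) with q | q
    · exact .inl ⟨Sb.Z_mono (sw_mono inter_subset_left) (h1 z' q), Sb.van_mono
        (sw_mono (W' := L.zs (some (j, z')) \ Q) fun y hy => ⟨hy.1, hR (fw_eq.subset hy.2).2⟩) (h2 z' q)⟩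
    · refine .inr (disjoint_left.2 fun y hy g => ?_)
      rw [Lv.zs_lt (by omega)] at hy
      exact lt_asymm hy.2 ((Lv.l_le (by omega)).trans_lt g.1)
  · rw [Lv.zs_lt hn] at hy
    exact ⟨hm ▸ hy.1.le, hy.2.le.trans (Lv.l_le (by omega))⟩

/-- **the scalar facts at a vertex** -/
theorem ok (i₀ : ι) : (gz 𝒞 L i₀ pa η Q ρ).Ok where
  mem := H.mem
  cl a _ := by
    change cob k (η a) ∈ _
    rw [Sb.mem_Z, cob_cob]; exact zero_mem _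
  loc := V.loc
  com _ _ h1 h2 a ha := V.com H a (fun z q => h2 z (q.trans ha)) fun z q => h1.2.1 z (q.trans ha)
  det1 z u h1 h2 h3 := by
    rcases lt_or_ge L.n (L.pos z + 5) with q | q
    · exact h1.2.2 q
    · obtain ⟨θ, t1, t2⟩ := V.det1 H ho hc hO hX q h2 h1.2.1 fun a ha =>
        h3 a (ha.trans (Nat.add_le_add_left (by decide : 2 ≤ 4) _))
      exact h1.1 z θ t1 t2
  det2 z u hz h1 h2 h3 := by
    rcases z with _ | ⟨i, z⟩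
    · exact absurd hz (Nat.not_lt_zero _)
    rcases lt_or_ge (z : ℕ) L.n with q | q
    · obtain ⟨θ, t1, t2⟩ := V.det2 ho hc hO hX H.cpt hz q (fun z' g => h2 _ ⟨g, .inl rfl⟩)
        (fun z' g => h1.2 _ ⟨g, .inl rfl⟩) h3
      exact h1.1 _ θ t1 t2
    · obtain rfl : z = Fin.last _ := Fin.ext (le_antisymm (Nat.lt_succ_iff.1 z.2) q)
      exact h3

end Fv

end Crest.Agent.N255.Dt

end
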